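import Mathlib

/-!
# P365-T2, law error of the one-body entropy, block LE-B (pure real lemma)

`lamT ε u = log (u + ε) + u / (u + ε)` is the derivative of `u log (u + ε)`.
-/

namespace P365T2.H269

open Real

/-- the multiplier `G'(u)` of `G(u) = u log (u + ε)` -/
noncomputable def lamT (ε u : ℝ) : ℝ := log (u + ε) + u / (u + ε)

theorem hasDerivAt_G {ε u : ℝ} (h : u + ε ≠ 0) :
    HasDerivAt (fun u => u * log (u + ε)) (lamT ε u) u := by
  have h1 : HasDerivAt (fun u => log (u + ε)) (1 / (u + ε)) u :=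
    ((hasDerivAt_id u).add_const ε).log h
  have h2 := (hasDerivAt_id u).fun_mul h1
  refine h2.congr_deriv ?_
  simp only [lamT, id]
  ring

theorem hasDerivAt_lamT {ε u : ℝ} (h : u + ε ≠ 0) :
    HasDerivAt (lamT ε) (1 / (u + ε) + ε / (u + ε) ^ 2) u := by
  have h1 : HasDerivAt (fun u => log (u + ε)) (1 / (u + ε)) u :=
    ((hasDerivAt_id u).add_const ε).log h
  have h2 : HasDerivAt (fun u => u / (u + ε)) ((1 * (u + ε) - u * 1) / (u + ε) ^ 2) u :=
    (hasDerivAt_id u).fun_div ((hasDerivAt_id u).add_const ε) h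
  refine (h1.fun_add h2).congr_deriv ?_
  ring

theorem lamT_mono {ε : ℝ} (hε : 0 < ε) {u v : ℝ} (hu : 0 ≤ u) (huv : u ≤ v) :
    lamT ε u ≤ lamT ε v := by
  have h1 : log (u + ε) ≤ log (v + ε) := log_le_log (by linarith) (by linarith)
  have h2 : u / (u + ε) ≤ v / (v + ε) := by
    rw [div_le_div_iff₀ (by linarith) (by linarith)]
    nlinarith
  unfold lamT
  linarith

/-- for `u0 ≤ u`: `λ(u) - λ(u0) ≤ log (u / u0)` -/
theorem lamT_sub_le {ε : ℝ} (hε : 0 < ε) {u0 u : ℝ} (h0 : 0 < u0) (h : u0 ≤ u) :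
    lamT ε u - lamT ε u0 ≤ log (u / u0) := by
  have hu : 0 < u := by linarith
  -- g(u) = log u - lamT u is nondecreasing
  have e1 : log (u / u0) = log u - log u0 := log_div hu.ne' h0.ne'
  have a1 : 0 < u + ε := by linarith
  have a2 : 0 < u0 + ε := by linarith
  -- log((u+ε)/(u0+ε)) - log(u/u0) = log(s) with s = (u+ε) u0/((u0+ε) u)
  have e2 : log (u + ε) - log (u0 + ε) - (log u - log u0) =
      log ((u + ε) * u0 / ((u0 + ε) * u)) := by
    rw [log_div (by positivity) (by positivity), log_mul a1.ne' h0.ne', log_mul a2.ne' hu.ne']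
    ring
  have e3 : log ((u + ε) * u0 / ((u0 + ε) * u)) ≤ (u + ε) * u0 / ((u0 + ε) * u) - 1 :=
    log_le_sub_one_of_pos (by positivity)
  have e4 : (u + ε) * u0 / ((u0 + ε) * u) - 1 = - (ε * (u - u0) / ((u0 + ε) * u)) := by
    field_simp
    ring
  have e5 : u / (u + ε) - u0 / (u0 + ε) = ε * (u - u0) / ((u0 + ε) * (u + ε)) := by
    field_simp
    ring
  have e6 : ε * (u - u0) / ((u0 + ε) * (u + ε)) ≤ ε * (u - u0) / ((u0 + ε) * u) := by
    have : 0 ≤ ε * (u - u0) := mul_nonneg hε.le (by linarith)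
    exact div_le_div_of_nonneg_left this (by positivity) (by nlinarith)
  unfold lamT
  linarith

theorem abs_lamT_sub_le {ε : ℝ} (hε : 0 < ε) {u0 u : ℝ} (h0 : 0 < u0) (hu : 0 < u) :
    |lamT ε u - lamT ε u0| ≤ |log (u / u0)| := by
  rcases le_total u0 u with h | h
  · have h1 := lamT_sub_le hε h0 h
    have h2 := lamT_mono hε h0.le h
    rw [abs_of_nonneg (by linarith)]
    exact h1.trans (le_abs_self _)
  · have h1 := lamT_sub_le hε hu h
    have h2 := lamT_mono hε hu.le h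
    rw [abs_sub_comm, abs_of_nonneg (by linarith)]
    have h3 : log (u0 / u) = - log (u / u0) := by rw [← log_inv, inv_div]
    rw [h3] at h1
    exact h1.trans (neg_le_abs _)

/-- values of the multiplier on `[0, B]` -/
theorem lamT_mem {ε B u : ℝ} (hε : 0 < ε) (hε1 : ε ≤ 1) (hu : 0 ≤ u) (hB : u ≤ B) :
    log ε ≤ lamT ε u ∧ lamT ε u ≤ log (B + 1) + 1 := by
  constructor
  · have h1 : lamT ε 0 ≤ lamT ε u := lamT_mono hε le_rfl hu
    have h2 : lamT ε 0 = log ε := by simp [lamT]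
    linarith
  · have h1 : log (u + ε) ≤ log (B + 1) := log_le_log (by linarith) (by linarith)
    have h2 : u / (u + ε) ≤ 1 := (div_le_one (by linarith)).2 (by linarith)
    unfold lamT
    linarith

theorem abs_lamT_sub_le_const {ε B u u0 : ℝ} (hε : 0 < ε) (hε1 : ε ≤ 1) (hu : 0 ≤ u) (hB : u ≤ B)
    (hu0 : 0 ≤ u0) (hB0 : u0 ≤ B) :
    |lamT ε u - lamT ε u0| ≤ log (1 / ε) + log (B + 1) + 1 := by
  have h1 := lamT_mem hε hε1 hu hB
  have h2 := lamT_mem hε hε1 hu0 hB0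
  have h3 : log (1 / ε) = - log ε := by rw [one_div, log_inv]
  rw [h3, abs_le]
  constructor <;> linarith [h1.1, h1.2, h2.1, h2.2]

/-- `|log (x / x0)| ≤ 2 δ / x0` for `|x - x0| ≤ δ ≤ x0 / 2` -/
theorem abs_log_ratio_le {x x0 δ : ℝ} (h0 : 0 < x0) (hx : |x - x0| ≤ δ) (hδ : δ ≤ x0 / 2) :
    0 < x ∧ |log (x / x0)| ≤ 2 * δ / x0 := by
  have h1 := abs_le.1 hx
  have hx0 : 0 < x := by linarith [h1.1]
  refine ⟨hx0, ?_⟩
  have hδ0 : 0 ≤ δ := (abs_nonneg _).trans hx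
  rw [abs_le]
  constructor
  · have e1 : log (x0 / x) ≤ x0 / x - 1 := log_le_sub_one_of_pos (by positivity)
    have e2 : log (x / x0) = - log (x0 / x) := by rw [← log_inv, inv_div]
    have e3 : x0 / x - 1 ≤ 2 * δ / x0 := by
      have : x0 / x - 1 = (x0 - x) / x := by field_simp
      rw [this, div_le_div_iff₀ hx0 h0]
      nlinarith [h1.1, h1.2]
    linarith
  · have e1 : log (x / x0) ≤ x / x0 - 1 := log_le_sub_one_of_pos (by positivity)
    have e3 : x / x0 - 1 ≤ 2 * δ / x0 := by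
      have : x / x0 - 1 = (x - x0) / x0 := by field_simp
      rw [this]
      gcongr
      linarith [h1.2]
    linarith

/-- **core of (L2)**: three cases -/
theorem core {ε ρ D a a0 n n0 α β : ℝ} (hε : 0 < ε) (hρ : 0 < ρ) (ha : 0 ≤ a) (ha0 : 0 ≤ a0)
    (hn : 0 < n) (hn0 : 0 < n0) (hα : |a - a0| ≤ α) (hβ : |n - n0| ≤ β)
    (hD : |lamT ε (a ^ 2 / (ρ * n ^ 2)) - lamT ε (a0 ^ 2 / (ρ * n0 ^ 2))| ≤ D) :
    |lamT ε (a ^ 2 / (ρ * n ^ 2)) - lamT ε (a0 ^ 2 / (ρ * n0 ^ 2))| * a ≤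
      (3 * D + 8) * (α + a0 / n0 * β) := by
  have hα0 : 0 ≤ α := (abs_nonneg _).trans hα
  have hβ0 : 0 ≤ β := (abs_nonneg _).trans hβ
  have hD0 : 0 ≤ D := (abs_nonneg _).trans hD
  have hr : 0 ≤ a0 / n0 := by positivity
  have h1 := abs_le.1 hα
  rcases lt_or_ge (a0 / 2) α with hc | hc
  · -- a ≤ 3 α
    have h2 : a ≤ 3 * α := by linarith [h1.2]
    calc _ ≤ D * (3 * α) := mul_le_mul hD h2 ha hD0
      _ ≤ (3 * D + 8) * (α + a0 / n0 * β) := by
        nlinarith [mul_nonneg hr hβ0, mul_nonneg hD0 (mul_nonneg hr hβ0), mul_nonneg hD0 hα0]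
  rcases lt_or_ge (n0 / 2) β with hd | hd
  · have h2 : a ≤ 3 / 2 * a0 := by linarith [h1.2]
    have h3 : a0 ≤ 2 * (a0 / n0 * β) := by
      have : a0 = a0 / n0 * n0 := by field_simp
      nlinarith
    have h4 : a ≤ 3 * (a0 / n0 * β) := by linarith
    calc _ ≤ D * (3 * (a0 / n0 * β)) := mul_le_mul hD h4 ha hD0
      _ ≤ (3 * D + 8) * (α + a0 / n0 * β) := by
        nlinarith [mul_nonneg hr hβ0, mul_nonneg hD0 (mul_nonneg hr hβ0), mul_nonneg hD0 hα0]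
  · rcases eq_or_lt_of_le ha0 with h00 | h00
    · -- a0 = 0: α ≤ 0, a = 0
      have hα1 : α = 0 := by rw [← h00] at hc; linarith
      have : a = 0 := by rw [hα1, ← h00] at hα; simpa using hα
      rw [this, mul_zero]
      have := mul_nonneg hr hβ0
      nlinarith
    · obtain ⟨hapos, hla⟩ := abs_log_ratio_le h00 hα hc
      obtain ⟨_, hln⟩ := abs_log_ratio_le hn0 hβ hd
      have hu : 0 < a ^ 2 / (ρ * n ^ 2) := by positivity
      have hu0 : 0 < a0 ^ 2 / (ρ * n0 ^ 2) := by positivity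
      have h2 := abs_lamT_sub_le hε hu0 hu
      have e1 : log (a ^ 2 / (ρ * n ^ 2) / (a0 ^ 2 / (ρ * n0 ^ 2))) =
          2 * log (a / a0) - 2 * log (n / n0) := by
        have : a ^ 2 / (ρ * n ^ 2) / (a0 ^ 2 / (ρ * n0 ^ 2)) = (a / a0) ^ 2 / (n / n0) ^ 2 := by
          field_simp
        rw [this, log_div (by positivity) (by positivity), log_pow, log_pow]
        push_cast
        ring
      rw [e1] at h2
      have h3 : |2 * log (a / a0) - 2 * log (n / n0)| ≤ 4 * α / a0 + 4 * β / n0 := by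
        have := abs_sub (2 * log (a / a0)) (2 * log (n / n0))
        rw [abs_mul, abs_mul, abs_of_pos (by norm_num : (0:ℝ) < 2)] at this
        have e2 : 4 * α / a0 + 4 * β / n0 = 2 * (2 * α / a0) + 2 * (2 * β / n0) := by ring
        rw [e2]
        linarith
      have h4 : a ≤ 3 / 2 * a0 := by linarith [h1.2]
      have h5 : 0 ≤ 4 * α / a0 + 4 * β / n0 := by positivity
      calc _ ≤ (4 * α / a0 + 4 * β / n0) * (3 / 2 * a0) :=
            mul_le_mul (h2.trans h3) h4 ha h5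
        _ = 6 * (α + a0 / n0 * β) := by field_simp; ring
        _ ≤ (3 * D + 8) * (α + a0 / n0 * β) := by
          have := mul_nonneg hr hβ0
          have h6 : 0 ≤ α + a0 / n0 * β := by linarith
          nlinarith

/-- **LE-B**: the claim of (L2).  `A, A0` the weighted sums, `m, m0` the imaginary parts,
`dA` the angular derivative of `A`, `h = |c| |t - t0|`. -/
theorem LEB {ε ρ D A A0 m m0 W Γ c τ dA : ℝ} (hε : 0 < ε) (hρ : 0 < ρ) (hA : 0 ≤ A)
    (hA0 : 0 ≤ A0) (hm : 0 < m) (hm0 : 0 < m0) (hW : 0 ≤ W) (hΓ : 0 < Γ) (hc : 0 ≤ c)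
    (hτ : 0 ≤ τ) (ha : |√A - √A0| ≤ c * τ * √W) (hn : |√m - √m0| ≤ c * τ * √Γ)
    (hdA : |dA| ≤ c * √A * √W / Γ)
    (hD : |lamT ε (A / (ρ * m)) - lamT ε (A0 / (ρ * m0))| ≤ D) :
    |lamT ε (A / (ρ * m)) - lamT ε (A0 / (ρ * m0))| * |dA| ≤
      (3 * D + 8) * (c ^ 2 * τ * (W / Γ + √(A0 / m0 * (W / Γ)))) := by
  have sA := Real.sq_sqrt hA
  have sA0 := Real.sq_sqrt hA0
  have sm := Real.sq_sqrt hm.le
  have sm0 := Real.sq_sqrt hm0.le
  have sW := Real.sq_sqrt hW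
  have sΓ := Real.sq_sqrt hΓ.le
  have pm := Real.sqrt_pos.2 hm
  have pm0 := Real.sqrt_pos.2 hm0
  have pΓ := Real.sqrt_pos.2 hΓ
  have e0 : A / (ρ * m) = √A ^ 2 / (ρ * √m ^ 2) := by rw [sA, sm]
  have e1 : A0 / (ρ * m0) = √A0 ^ 2 / (ρ * √m0 ^ 2) := by rw [sA0, sm0]
  have hcore := core (ε := ε) (ρ := ρ) (D := D) hε hρ (Real.sqrt_nonneg A) (Real.sqrt_nonneg A0)
    pm pm0 ha hn (by rw [← e0, ← e1]; exact hD)
  rw [← e0, ← e1] at hcore
  set L := |lamT ε (A / (ρ * m)) - lamT ε (A0 / (ρ * m0))|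
  have hL : 0 ≤ L := abs_nonneg _
  have e2 : √(A0 / m0 * (W / Γ)) = √A0 / √m0 * (√W / √Γ) := by
    rw [Real.sqrt_mul (by positivity), Real.sqrt_div hA0, Real.sqrt_div hW]
  have e3 : W / Γ = √W / √Γ * (√W / √Γ) := by
    rw [← sq, div_pow, sW, sΓ]
  calc L * |dA| ≤ L * (c * √A * √W / Γ) := mul_le_mul_of_nonneg_left hdA hL
    _ = (L * √A) * (c * √W / Γ) := by ring
    _ ≤ ((3 * D + 8) * (c * τ * √W + √A0 / √m0 * (c * τ * √Γ))) * (c * √W / Γ) :=
      mul_le_mul_of_nonneg_right hcore (by positivity)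
    _ = (3 * D + 8) * (c ^ 2 * τ * (W / Γ + √(A0 / m0 * (W / Γ)))) := by
      rw [e2, e3]
      have e4 : Γ = √Γ * √Γ := by rw [← sq, sΓ]
      have e5 : c * √W / Γ = c * √W / (√Γ * √Γ) := by rw [← e4]
      rw [e5]
      field_simp

/-- Young form with a free parameter `k` -/
theorem LEB_young {ε ρ D A A0 m m0 W Γ c τ dA k : ℝ} (hε : 0 < ε) (hρ : 0 < ρ) (hA : 0 ≤ A)
    (hA0 : 0 ≤ A0) (hm : 0 < m) (hm0 : 0 < m0) (hW : 0 ≤ W) (hΓ : 0 < Γ) (hc : 0 ≤ c)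
    (hτ : 0 ≤ τ) (ha : |√A - √A0| ≤ c * τ * √W) (hn : |√m - √m0| ≤ c * τ * √Γ)
    (hdA : |dA| ≤ c * √A * √W / Γ)
    (hD : |lamT ε (A / (ρ * m)) - lamT ε (A0 / (ρ * m0))| ≤ D) (hk : 0 < k) :
    |lamT ε (A / (ρ * m)) - lamT ε (A0 / (ρ * m0))| * |dA| ≤
      c ^ 2 * τ * (k * (A0 / m0) + ((3 * D + 8) + (3 * D + 8) ^ 2 / k) * (W / Γ)) := by
  have h := LEB hε hρ hA hA0 hm hm0 hW hΓ hc hτ ha hn hdA hD
  have hD0 : 0 ≤ D := (abs_nonneg _).trans hD
  refine h.trans ?_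
  set C := 3 * D + 8
  have hC : 0 < C := by positivity
  set U := A0 / m0
  set Z := W / Γ
  have hU : 0 ≤ U := by positivity
  have hZ : 0 ≤ Z := by positivity
  have h1 : C * √(U * Z) ≤ k * U + C ^ 2 / k * Z := by
    have h2 : √(U * Z) = √U * √Z := Real.sqrt_mul hU _
    have h3 := Real.sq_sqrt hU
    have h4 := Real.sq_sqrt hZ
    have h5 : 0 ≤ (k * √U - C * √Z) ^ 2 := sq_nonneg _
    have h6 : C * √(U * Z) = (2 * (k * √U) * (C * √Z)) / (2 * k) := by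
      rw [h2]; field_simp
    have h7 : k * U + C ^ 2 / k * Z = ((k * √U) ^ 2 + (C * √Z) ^ 2) / k := by
      rw [mul_pow, mul_pow, h3, h4]; field_simp
    rw [h6, h7, div_le_div_iff₀ (by positivity) hk]
    have h8 : 0 ≤ (k * √U) ^ 2 + (C * √Z) ^ 2 := by positivity
    nlinarith [mul_nonneg hk.le h5, mul_nonneg hk.le h8]
  have h2 : 0 ≤ c ^ 2 * τ := by positivity
  calc C * (c ^ 2 * τ * (Z + √(U * Z))) = c ^ 2 * τ * (C * Z + C * √(U * Z)) := by ring
    _ ≤ c ^ 2 * τ * (C * Z + (k * U + C ^ 2 / k * Z)) :=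
      mul_le_mul_of_nonneg_left (by linarith) h2
    _ = _ := by ring

end P365T2.H269
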