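import Vale.Agent.P365.T2.H269.LEB

/-!
# P365-T2, block LE-B, summed over the sites `x`

`e b` the absorptions, `c b = ‖c_b‖ = ‖G_by / G_yy‖`, `Γ = ∑ e c²`, `W x = ∑ e_b w(x,b) c_b²`,
`h b = h(b, y)` with `w(x,b) ≤ 2 h x + 2 h b`, `Nh = ∑ e_b c_b² h_b`.
-/

namespace P365T2.H269

open Real Finset

variable {ι : Type*} [Fintype ι]

/-- `∑ e_x c_x² W_x ≤ 4 Γ ∑ e_b c_b² h_b` -/
theorem sum_cW_le {e c h : ι → ℝ} {w : ι → ι → ℝ} (he : ∀ x, 0 ≤ e x)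
    (hw : ∀ x b, w x b ≤ 2 * h x + 2 * h b) :
    ∑ x, e x * c x ^ 2 * ∑ b, e b * w x b * c b ^ 2 ≤
      4 * (∑ b, e b * c b ^ 2) * ∑ b, e b * c b ^ 2 * h b := by
  have h1 : ∀ x, e x * c x ^ 2 * ∑ b, e b * w x b * c b ^ 2 ≤
      2 * (∑ b, e b * c b ^ 2) * (e x * c x ^ 2 * h x) +
        2 * (e x * c x ^ 2) * ∑ b, e b * c b ^ 2 * h b := by
    intro x
    have h2 : ∑ b, e b * w x b * c b ^ 2 ≤ ∑ b, (2 * h x * (e b * c b ^ 2) +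
        2 * (e b * c b ^ 2 * h b)) := by
      refine sum_le_sum fun b _ => ?_
      have := mul_le_mul_of_nonneg_left (hw x b) (mul_nonneg (he b) (sq_nonneg (c b)))
      nlinarith
    rw [sum_add_distrib, ← mul_sum, ← mul_sum] at h2
    have h3 : 0 ≤ e x * c x ^ 2 := mul_nonneg (he x) (sq_nonneg _)
    calc _ ≤ e x * c x ^ 2 * (2 * h x * ∑ b, e b * c b ^ 2 + 2 * ∑ b, e b * c b ^ 2 * h b) :=
          mul_le_mul_of_nonneg_left h2 h3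
      _ = _ := by ring
  refine (sum_le_sum fun x _ => h1 x).trans ?_
  rw [sum_add_distrib, ← mul_sum, ← sum_mul, ← mul_sum]
  apply le_of_eq
  ring

/-- **LE-B summed over `x`** -/
theorem LEB_sum {e c h A A0 m m0 dA : ι → ℝ} {w : ι → ι → ℝ} {ε ρ D Γ τ : ℝ}
    (hε : 0 < ε) (hρ : 0 < ρ) (he : ∀ x, 0 ≤ e x) (hc : ∀ x, 0 ≤ c x) (hh : ∀ x, 0 ≤ h x)
    (hw0 : ∀ x b, 0 ≤ w x b) (hw : ∀ x b, w x b ≤ 2 * h x + 2 * h b)
    (hΓ : Γ = ∑ b, e b * c b ^ 2) (hΓ0 : 0 < Γ) (hτ : 0 ≤ τ)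
    (hA : ∀ x, 0 ≤ A x) (hA0 : ∀ x, 0 ≤ A0 x) (hm : ∀ x, 0 < m x) (hm0 : ∀ x, 0 < m0 x)
    (ha : ∀ x, |√(A x) - √(A0 x)| ≤ c x * τ * √(∑ b, e b * w x b * c b ^ 2))
    (hn : ∀ x, |√(m x) - √(m0 x)| ≤ c x * τ * √Γ)
    (hdA : ∀ x, |dA x| ≤ c x * √(A x) * √(∑ b, e b * w x b * c b ^ 2) / Γ)
    (hD : ∀ x, |lamT ε (A x / (ρ * m x)) - lamT ε (A0 x / (ρ * m0 x))| ≤ D) (hD0 : 0 ≤ D) :
    ∑ x, |lamT ε (A x / (ρ * m x)) - lamT ε (A0 x / (ρ * m0 x))| * (e x * |dA x|) ≤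
      4 * (3 * D + 8) * τ * (∑ b, e b * c b ^ 2 * h b +
        √(∑ b, e b * c b ^ 2 * h b) * √(∑ x, e x * c x ^ 2 * (A0 x / m0 x))) := by
  set W : ι → ℝ := fun x => ∑ b, e b * w x b * c b ^ 2 with hWd
  have hW : ∀ x, 0 ≤ W x := fun x =>
    sum_nonneg fun b _ => mul_nonneg (mul_nonneg (he b) (hw0 x b)) (sq_nonneg _)
  set Nh := ∑ b, e b * c b ^ 2 * h b with hNh
  have hNh0 : 0 ≤ Nh := sum_nonneg fun b _ => mul_nonneg (mul_nonneg (he b) (sq_nonneg _)) (hh b)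
  set C := 3 * D + 8 with hC
  have hC0 : 0 < C := by positivity
  have h1 : ∀ x, |lamT ε (A x / (ρ * m x)) - lamT ε (A0 x / (ρ * m0 x))| * (e x * |dA x|) ≤
      C * τ * (e x * c x ^ 2 * (W x / Γ) +
        √(e x * c x ^ 2 * (A0 x / m0 x)) * √(e x * c x ^ 2 * (W x / Γ))) := by
    intro x
    have h2 := LEB (ε := ε) (ρ := ρ) (D := D) hε hρ (hA x) (hA0 x) (hm x) (hm0 x) (hW x) hΓ0
      (hc x) hτ (ha x) (hn x) (hdA x) (hD x)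
    have h3 := mul_le_mul_of_nonneg_left h2 (he x)
    have h4 : e x * ((3 * D + 8) * (c x ^ 2 * τ * (W x / Γ + √(A0 x / m0 x * (W x / Γ))))) =
        C * τ * (e x * c x ^ 2 * (W x / Γ) +
          √(e x * c x ^ 2 * (A0 x / m0 x)) * √(e x * c x ^ 2 * (W x / Γ))) := by
      have h5 : 0 ≤ e x * c x ^ 2 := mul_nonneg (he x) (sq_nonneg _)
      have h6 : 0 ≤ A0 x / m0 x := div_nonneg (hA0 x) (hm0 x).le
      have h7 : 0 ≤ W x / Γ := div_nonneg (hW x) hΓ0.le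
      rw [← Real.sqrt_mul (mul_nonneg h5 h6)]
      have h8 : e x * c x ^ 2 * (A0 x / m0 x) * (e x * c x ^ 2 * (W x / Γ)) =
          (e x * c x ^ 2) ^ 2 * (A0 x / m0 x * (W x / Γ)) := by ring
      rw [h8, Real.sqrt_mul (sq_nonneg _), Real.sqrt_sq h5]
      ring
    calc _ = e x * (|lamT ε (A x / (ρ * m x)) - lamT ε (A0 x / (ρ * m0 x))| * |dA x|) := by ring
      _ ≤ _ := h3
      _ = _ := h4
  refine (sum_le_sum fun x _ => h1 x).trans ?_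
  rw [← mul_sum, sum_add_distrib]
  have h2 : ∑ x, e x * c x ^ 2 * (W x / Γ) ≤ 4 * Nh := by
    have h3 := sum_cW_le (c := c) he hw
    rw [← hΓ] at h3
    have h4 : ∑ x, e x * c x ^ 2 * (W x / Γ) = (∑ x, e x * c x ^ 2 * W x) / Γ := by
      rw [sum_div]
      exact sum_congr rfl fun x _ => by ring
    rw [h4, div_le_iff₀ hΓ0]
    calc _ ≤ 4 * Γ * Nh := h3
      _ = 4 * Nh * Γ := by ring
  have h5 : ∑ x, √(e x * c x ^ 2 * (A0 x / m0 x)) * √(e x * c x ^ 2 * (W x / Γ)) ≤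
      √(∑ x, e x * c x ^ 2 * (A0 x / m0 x)) * √(∑ x, e x * c x ^ 2 * (W x / Γ)) := by
    have h6 := Real.sum_sqrt_mul_sqrt_le (s := Finset.univ)
      (f := fun x => e x * c x ^ 2 * (A0 x / m0 x)) (g := fun x => e x * c x ^ 2 * (W x / Γ))
      (fun x => mul_nonneg (mul_nonneg (he x) (sq_nonneg _)) (div_nonneg (hA0 x) (hm0 x).le))
      (fun x => mul_nonneg (mul_nonneg (he x) (sq_nonneg _)) (div_nonneg (hW x) hΓ0.le))
    simpa using h6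
  have h6 : √(∑ x, e x * c x ^ 2 * (W x / Γ)) ≤ 2 * √Nh := by
    have h7 : √(4 * Nh) = 2 * √Nh := by
      rw [Real.sqrt_mul (by norm_num), show (4 : ℝ) = 2 ^ 2 by norm_num,
        Real.sqrt_sq (by norm_num)]
    rw [← h7]
    exact Real.sqrt_le_sqrt h2
  set R := √(∑ x, e x * c x ^ 2 * (A0 x / m0 x)) with hR
  have hR0 : 0 ≤ R := Real.sqrt_nonneg _
  have h7 : R * √(∑ x, e x * c x ^ 2 * (W x / Γ)) ≤ R * (2 * √Nh) :=
    mul_le_mul_of_nonneg_left h6 hR0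
  have h8 : 0 ≤ C * τ := by positivity
  have h9 : 0 ≤ √Nh * R := mul_nonneg (Real.sqrt_nonneg _) hR0
  calc _ ≤ C * τ * (4 * Nh + R * (2 * √Nh)) :=
        mul_le_mul_of_nonneg_left (add_le_add h2 (h5.trans h7)) h8
    _ ≤ 4 * C * τ * (Nh + √Nh * R) := by nlinarith [mul_nonneg h8 h9]

end P365T2.H269
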